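import Crest.Agent.X262.Noe83.Main
import Crest.Agent.X262.Kah.ClsD
import Crest.Agent.X262.Man.Th
import Crest.Agent.X262.RR.Main

/-!
# Row 262, NOE (helper83), part 3: Noether's formula for the de Rham theory

* `mem_Dg_iff_degC`, `mem_Zk_iff` : the two notions of degree agree;
* `bet_eq`  : the even Betti numbers are the dimensions of the groups `HD`;
* `noeA : Lat.NoeAStmt`;  `noe_th : EulStmt → IrrStmt → (thOf typ c1 Lam).NOE`.
-/

set_option autoImplicit false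
set_option linter.unusedSectionVars false

open Set Module

noncomputable section

namespace Crest.Agent.X262.Noe83

open Crest.Agent.R208.F Crest.Agent.R208.FI Crest.Agent.R208.CW Crest.Agent.R208.T
open Crest.Agent.R275.Geo (Cn Atl)
open Crest.Agent.X262.Man Crest.Agent.X262.Kah Crest.Agent.X262.Lat Crest.Agent.X262.Coh
open Crest.Agent.X277 Crest.Agent.X277.Lef Crest.Agent.X277.AN.G1 Crest.Agent.X277.BD

variable {E : Type} [NormedAddCommGroup E] [NormedSpace ℝ E] [FiniteDimensional ℝ E]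

theorem mem_Dg_iff_degC {k : ℕ} {a : CF E} : a ∈ Frm.Dg E k ↔ DegC k a := by
  have h1 : ∀ {k : ℕ} {a : CF E}, a ∈ Frm.Dg E k → DegC k a := fun h =>
    ⟨fun q hq => AlternatingMap.ext fun v => by
      rw [← Frm.evC_re, Frm.evC_of_Dg h hq.symm]; rfl, fun q hq => AlternatingMap.ext fun v => by
      rw [← Frm.evC_im, Frm.evC_of_Dg h hq.symm]; rfl⟩
  refine ⟨h1, fun h => Frm.mem_Dg_iff.2 (Cx.ext (ext_evA fun q => ?_) (ext_evA fun q => ?_))⟩
  · by_cases hq : q = k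
    · subst hq
      exact AlternatingMap.ext fun v => by rw [← Frm.evC_re, Frm.evC_dg, Frm.evC_re]
    · rw [(h1 (Frm.dg_mem k a)).1 q hq, h.1 q hq]
  · by_cases hq : q = k
    · subst hq
      exact AlternatingMap.ext fun v => by rw [← Frm.evC_im, Frm.evC_dg, Frm.evC_im]
    · rw [(h1 (Frm.dg_mem k a)).2 q hq, h.2 q hq]

variable {n : ℕ} {M : Type} [TopologicalSpace M] {A : Atl n M}

theorem mem_Zk_iff {k : ℕ} {u : FS A} : u ∈ Zk A k ↔ dF A u = 0 ∧ DgF k u := by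
  rw [mem_Zk]
  refine and_congr_right fun _ => ⟨fun h i z _ => mem_Dg_iff_degC.1 (h i z), fun h i z => ?_⟩
  by_cases hz : z ∈ (A.e i).target
  · exact mem_Dg_iff_degC.2 (h i z hz)
  · rw [u.off hz]
    exact zero_mem _

variable [CompactSpace M]

theorem Zk_le {k : ℕ} {u : FS A} (hu : u ∈ Zk A (2 * k)) : u ∈ ZF A :=
  ⟨FS.ext' fun i z _ => by
    rw [invF_apply, Frm.invC_of_Dg ((mem_Zk.1 hu).2 i z), pow_mul, neg_one_sq, one_pow, one_smul],
    (mem_Zk.1 hu).1⟩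

/-- the even Betti numbers -/
theorem bet_eq (ε : Emb A E) (k : ℕ) : Lat.bet A (2 * k) = finrank ℂ (HD ε.X (2 * k)) := by
  let φ : Zk A (2 * k) →ₗ[ℂ] HD ε.X (2 * k) :=
    { toFun := fun u => ⟨toH ε ⟨u.1, Zk_le u.2⟩, toH_mem_HD ε (mem_Zk_iff.1 u.2).2⟩
      map_add' := fun u v => Subtype.ext (map_add (toH ε) ⟨u.1, Zk_le u.2⟩ ⟨v.1, Zk_le v.2⟩)
      map_smul' := fun c u => Subtype.ext (map_smul (toH ε) c ⟨u.1, Zk_le u.2⟩) }
  have h1 : Function.Surjective φ := by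
    rintro ⟨a, ha⟩
    obtain ⟨u, hu, rfl⟩ := (mem_HD_iff ε).1 ha
    exact ⟨⟨u.1, mem_Zk_iff.2 ⟨u.2.2, hu⟩⟩, rfl⟩
  have h2 : (LinearMap.range (dF A)).comap (Zk A (2 * k)).subtype = LinearMap.ker φ := by
    ext u
    rw [LinearMap.mem_ker, Subtype.ext_iff]
    exact (toH_eq_zero_iff ε (u := ⟨u.1, Zk_le u.2⟩)).symm
  rw [Lat.bet, ← (φ.quotKerEquivOfSurjective h1).finrank_eq]
  exact (Submodule.quotEquivOfEq _ _ h2).finrank_eq

theorem noeA : NoeAStmt := noeA_of RR.rrStmt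

/-- **Noether's formula** for the de Rham theory -/
theorem noe_th (h1 : EulStmt) (h2 : IrrStmt) (typ : ∀ X : SV, ℕ → ℕ → Submodule ℂ (HP X.P))
    (c1 : ∀ X : SV, BD ℂ X.F → HP X.P) (Lam : ∀ X : SV, AddSubgroup (HP X.P)) :
    (thOf typ c1 Lam).NOE := by
  intro X b
  obtain ⟨Y⟩ := nonempty_AnP X.P b
  have h := noe_of h1 h2 noeA b Y
  rw [show Lat.bet Y.A 2 = _ from bet_eq (emb Y) 1] at h
  exact h

end Crest.Agent.X262.Noe83
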