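import Crest.Agent.X262.Noe83.Van
import Crest.Agent.X262.Lat.NDefs
import Crest.Agent.R275.NoeFin_890
import Crest.Agent.R275.NA4m_783
import Crest.Agent.R275.NA4sw_686
import Crest.Agent.R275.EulC_130
import Crest.Agent.X277.AN.G1Gaga
import Crest.Agent.X277.AN.G1KO

/-!
# Row 262, NOE (helper83), part 2: Noether's formula

* `noe_an`  : Noether's formula of R275 for a compact surface with a finite good atlas;
* `second`  : the second difference of the holomorphic Euler characteristic;
* `bb_K`    : the index form of `K` is the intersection number `K²`;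
* `chi_eq`  : the constant of Riemann-Roch is `1 - h¹(O) + p_g`;
* `noeA_of` : `Surf.RRStmt → Lat.NoeAStmt`.
-/

set_option autoImplicit false
set_option linter.unusedSectionVars false

open Set Filter Module

namespace Crest.Agent.X262.Noe83

open Crest.Agent.R275 Crest.Agent.R275.Geo Crest.Agent.R275.Core144 Crest.Agent.R275.ChiM825
open Crest.Agent.R275.Q74 Crest.Agent.R275.MI683 Crest.Agent.R275.LnkP5476
open Crest.Agent.R273.FS_333
open Crest.Agent.X277 Crest.Agent.X277.Lef Crest.Agent.X277.AN.G1 Crest.Agent.X277.BD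
open Crest.Agent.X277.BD.Br Crest.Agent.X262.Surf

noncomputable section

section an

variable {M : Type} [TopologicalSpace M] [T2Space M] [CompactSpace M] {A : Atl 2 M}

/-- the holomorphic Euler characteristic -/
def ch (L : LB A) : ℤ := chiE (isLC L)

variable [Finite A.ι]

/-- the index form -/
def bb (P : Part A) (L K : LB A) : ℤ := bL P (geoI P (nabL_sq A)) (slb L) (slb K)

variable (P : Part A)

theorem euler (L : LB A) : chiL P (geoI P (nabL_sq A)) (slb L) = chiE (isLC L) :=
  EulC130.euler (gmodP_σ P (nabL_sq A)) (isCoh_geo P) P L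

theorem bb_eq (L K : LB A) : bb P L K = ch (L * K) - ch L - ch K + ch (1 : LB A) := by
  unfold bb bL ch
  rw [← slb_mul, ← slb_one, euler, euler, euler, euler]

theorem second (L K N : LB A) :
    ch (L * (K * N)) - ch (L * N) - ch (K * N) + ch N = bb P L K := by
  have h : bb P L (K * N) = bb P L K + bb P L N := bL_tmul_right (slb K) (slb N) (slb L)
  rw [bb_eq P L (K * N), bb_eq P L N] at h
  linarith

theorem ch_pow (O : LB A) (j : ℕ) :
    2 * ch (O ^ j) = 2 * ch (1 : LB A) + 2 * j * (ch O - ch (1 : LB A)) + j * (j - 1) * bb P O O := by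
  have key : ∀ j : ℕ, ch (O ^ (j + 1)) - ch (O ^ j) = ch O - ch (1 : LB A) + j * bb P O O := by
    intro j
    induction j with
    | zero => simp
    | succ j ih =>
      have h := second P O O (O ^ j)
      rw [← pow_succ', ← pow_succ'] at h
      push_cast
      linarith
  induction j with
  | zero => simp
  | succ j ih =>
    have h := key j
    push_cast
    linarith

/-- **Noether's formula**, analytic form -/
theorem noe_an {A : Atl 2 M} [Fintype A.ι] (P : Part A) (hA : GC293.GoodA A) :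
    12 * ch (1 : LB A) = bb P (KB A) (KB A) + Lat.nv A := by
  have h := NoeFin890.noether_geo' hA P P (fun m q w hd h0 hn => by
      obtain ⟨v, -, -, h3, h4⟩ :=
        NA4783.acyc (q := q) (m := m) (fun u => NoeAsm890.flat_prod u) w hd h0 hn
      exact ⟨v, h3, h4⟩) NA4sw686.rho_swap (euler P) (fun L => (serre_LB P L).2.2)
    fun L => (serre_LB P L).2.1
  rw [← slb_one, euler] at h
  exact h

end an

variable {F : Type} [Field F] [Algebra ℂ F] {P : PModel ℂ F} (b : B2 F) (X : AnP P 2)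

theorem h0_zero : h0 (0 : BD ℂ F) = 1 := by
  have h1 : (0 : BD ℂ F).Sec = Submodule.span ℂ {1} := by
    refine le_antisymm (fun x hx => ?_) ((Submodule.span_singleton_le_iff_mem _ _).2 fun V => ?_)
    · have h2 : IsIntegral (⊥ : Subalgebra ℂ F) x := Cns.isIntegral_of_val fun V hV =>
        RZ.le_one_iff.1 (hx ⟨V, Cns.KV.of_le hV⟩)
      obtain ⟨c, rfl⟩ := (IsAlgClosed.algebraMap_bijective_of_isIntegral (k := ℂ)
        (K := integralClosure ℂ F)).2 ⟨x, isIntegral_trans (R := ℂ) x h2⟩ |>.imp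
          fun c hc => congrArg Subtype.val hc
      exact Submodule.mem_span_singleton.2 ⟨c, (Algebra.algebraMap_eq_smul_one c).symm⟩
    · simp
  rw [h0, h1, finrank_span_singleton (one_ne_zero' F), Nat.cast_one]

/-- GAGA for the bundles `K ^ m ⊗ O(j)` -/
theorem h0_ko (m j : ℕ) : (finrank ℂ (HS (KB X.A ^ m * lb X.Pr ^ j) univ) : ℤ) =
    h0 (m • kP P b + j • oP P) := by
  have h := (AnP.secE (X.koF b m j)).finrank_eq
  rw [X.lbF_koF, X.Gam_koF, ← Sec_ky, zpow_natCast, natCast_zsmul] at h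
  rw [h0, h]

theorem ch_large (m : ℕ) : ∀ᶠ j : ℕ in atTop,
    ch (KB X.A ^ m * lb X.Pr ^ j) = h0 (m • kP P b + j • oP P) :=
  (chi_large X.PA (fsKah X.Pr) (fs_pos X.Pr) (KB X.A ^ m)).mono fun j hj =>
    hj.trans (h0_ko b X m j)

theorem ch_one : ch (1 : LB X.A) = 1 - (hq 1 (1 : LB X.A) : ℤ) + finrank ℂ (kP P b).Sec := by
  have h1 := h0_ko b X 0 0
  have h2 := h0_ko b X 1 0
  rw [pow_zero, pow_zero, mul_one, zero_smul, zero_smul, add_zero] at h1
  rw [pow_zero, pow_one, mul_one, zero_smul, one_smul, add_zero] at h2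
  rw [ch, chiE_eq, (serre_LB X.PA 1).2.2, inv_one, mul_one, hq0_eq, hq0_eq, h1, h2, h0_zero, h0]

variable [Algebra.EssFiniteType ℂ F]

theorem rr_ko (c : ℤ) (m j : ℕ) : rr P b c (m • kP P b + j • oP P) =
    2 * c + m * (m - 1) * bnum [kP P b, kP P b] + (2 * m - 1) * j * bnum [kP P b, oP P] +
      j ^ 2 * bnum [oP P, oP P] := by
  simp only [rr, bnum_add, bnum_nsmul, bnum_sub2, bnum_add2, bnum_nsmul2,
    bnum_swap (oP P) (kP P b)]
  ring

variable {b} {c : ℤ} (hc : Chi P b c)

include hc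

theorem ch_rr (m : ℕ) : ∀ᶠ j : ℕ in atTop, 2 * ch (KB X.A ^ m * lb X.Pr ^ j) =
    2 * c + m * (m - 1) * bnum [kP P b, kP P b] + (2 * m - 1) * j * bnum [kP P b, oP P] +
      j ^ 2 * bnum [oP P, oP P] := by
  filter_upwards [ch_large b X m, hc _ (nsmul_mem (kP_mem b) m)] with j h1 h2
  rw [h1, h2, rr_ko]

/-- the index form of the canonical bundle -/
theorem bb_K : bb X.PA (KB X.A) (KB X.A) = bnum [kP P b, kP P b] := by
  obtain ⟨j, h0, h1, h2⟩ := ((ch_rr X hc 0).and ((ch_rr X hc 1).and (ch_rr X hc 2))).exists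
  have h := second X.PA (KB X.A) (KB X.A) (lb X.Pr ^ j)
  rw [pow_zero, one_mul] at h0
  rw [pow_one] at h1
  rw [pow_two, mul_assoc] at h2
  push_cast at h0 h1 h2
  linarith

/-- the constant of Riemann-Roch -/
theorem chi_eq : c = 1 - (hq 1 (1 : LB X.A) : ℤ) + finrank ℂ (kP P b).Sec := by
  obtain ⟨j, hj⟩ := eventually_atTop.1 (ch_rr X hc 0)
  have h : ∀ i : ℕ, 2 * ch (1 : LB X.A) + 2 * (j + i) * (ch (lb X.Pr) - ch (1 : LB X.A)) +
      (j + i) * (j + i - 1) * bb X.PA (lb X.Pr) (lb X.Pr) =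
      2 * c - (j + i) * bnum [kP P b, oP P] + (j + i) ^ 2 * bnum [oP P, oP P] := by
    intro i
    have h1 := hj (j + i) (Nat.le_add_right _ _)
    rw [pow_zero, one_mul, ch_pow X.PA] at h1
    push_cast at h1
    linarith
  have h0 := h 0
  have h1 := h 1
  have h2 := h 2
  push_cast at h0 h1 h2
  have e2 : bb X.PA (lb X.Pr) (lb X.Pr) = bnum [oP P, oP P] := by linarith
  rw [e2] at h0 h1
  have e1 : 2 * (ch (lb X.Pr) - ch (1 : LB X.A)) = bnum [oP P, oP P] - bnum [kP P b, oP P] := by
    linarith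
  rw [← ch_one b X]
  have e0 : 2 * (j : ℤ) * (ch (lb X.Pr) - ch (1 : LB X.A)) =
      j * (bnum [oP P, oP P] - bnum [kP P b, oP P]) := by
    rw [← e1]
    ring
  linarith

omit hc in
/-- **Noether's formula** -/
theorem noeA_of (hR : RRStmt) : Lat.NoeAStmt := by
  intro F _ _ _ P b X _
  obtain ⟨c, hc⟩ := hR F P b
  rw [← ch_one b X, ← bb_K X hc]
  exact noe_an X.PA X.good

end

end Crest.Agent.X262.Noe83
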